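import Vale.Agent.P277Z.F5.Sk
import Vale.Agent.P277Z.Lift.FDefs
import Vale.Agent.P277Z.Lift.KDefs

/-!
# P287D, block KV: vanishing and connectedness on models. Statements.
-/

set_option linter.all false

open scoped Manifold ContDiff Topology ENNReal
open Set Filter MeasureTheory
open Vale.Agent.P272.K (Cm Chart At)
open Vale.Agent.P297 (Place)
open Vale.Agent.P285.H281.FD (Bd)

noncomputable section

namespace Vale.Agent.P277Z.Kv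

open Lift FI F5

variable {n N : ℕ} {K : Type} [Field K] [Algebra ℂ K]

/-- `f` is a section of `⌊D⌋` at `x` -/
def Ls (M : Mdl n N K) (x : M.F) (D : Div K) (f : K) : Prop :=
  f = 0 ∨ ∀ P, M.On x P → 0 ≤ (P.ord f : ℝ) + D P

/-- `f` is a section of `⌈D⌉` at `x` -/
def Lc (M : Mdl n N K) (x : M.F) (D : Div K) (f : K) : Prop :=
  f = 0 ∨ ∀ P, M.On x P → -1 < (P.ord f : ℝ) + D P

/-- `f` generates `D` at `x` -/
def Gs (M : Mdl n N K) (x : M.F) (D : Div K) (f : K) : Prop :=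
  f ≠ 0 ∧ ∀ P, M.On x P → (P.ord f : ℝ) + D P = 0

/-- `x` and `y` have the same image under all the systems `|k H|` -/
def Sm (M : Mdl n N K) (H : Div K) (x y : M.F) : Prop :=
  ∀ (k : ℕ), ∀ f ∈ M.H0 ((k : ℝ) • H), Gs M x ((k : ℝ) • H) f ↔ Gs M y ((k : ℝ) • H) f

/-- `x` lies on a component of `Δ` with a coefficient at least one -/
def Nk (M : Mdl n N K) (Δ : Div K) (x : M.F) : Prop := ∃ P, M.On x P ∧ 1 ≤ Δ P

/-- the section `f` of `L` is in the multiplier ideal of the systems `W j ⊆ |D j|` with the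
coefficients `c j` -/
def J (M : Mdl n N K) (L : Div K) {k : ℕ} (D : Fin k → Div K) (W : Fin k → Finset K)
    (c : Fin k → ℝ) (x : M.F) (f : K) : Prop :=
  ∀ (t₀ : K) (t : Fin k → K), LG M x L t₀ → (∀ j, LG M x (D j) (t j)) →
    LIm M x fun z => nv M (f * t₀) z * ∏ j, (∑ w ∈ W j, nv M (w * t j) z) ^ (-c j)

section geo

variable (d : ℕ) {W : Type} [TopologicalSpace W] [ChartedSpace (Cm d) W] {m : ℕ}

/-- integrability in the frames `i`, `k` -/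
def IK {C : Bd W} {E : Fin m → Bd W} (c : Fin m → ℝ) {r : Fin m → ℕ}
    (w : ∀ j, Fin (r j) → (E j).ι → W → ℂ) (s : C.ι → W → ℂ) (z : W) (i : C.ι)
    (k : ∀ j, (E j).ι) : Prop :=
  LIM d (fun y => ENNReal.ofReal (‖s i y‖ ^ 2) * wt (fun j a => w j a (k j)) c y) z

end geo

/-- **NADF**: the theorem of Nadel near the fibre -/
def NADF : Prop := ∀ (d N : ℕ) (G : Geo d N), G.Proj → ∀ (C : Bd G.W) (m : ℕ)
  (E : Fin m → Bd G.W) (c : Fin m → ℝ) (r : Fin m → ℕ)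
  (w : ∀ j, Fin (r j) → (E j).ι → G.W → ℂ)
  (Λ : C.ι → (∀ j, ((Fin.cons (Bd.can d G.W) E : Fin (m + 1) → Bd G.W) j).ι) → G.W → ℝ)
  (α : Type) [Finite α] (V : α → Set G.W) (f : α → C.ι → G.W → ℂ), G.LB C → (∀ j, G.LB (E j)) →
  (∀ j, 0 ≤ c j) → (∀ j a, G.Sec (E j) (w j a)) →
  (∀ᶠ z in 𝓝ˢ G.F, PosAt d C (Fin.cons (Bd.can d G.W) E) (Fin.cons 1 c) Λ z) →
  (∀ a, IsOpen (V a)) → (∀ z ∈ G.F, ∃ a, z ∈ V a) → (∀ a, G.Sec C (f a)) →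
  (∀ᶠ z in 𝓝ˢ G.F, ∀ a b, z ∈ V a → z ∈ V b → ∃ i k, z ∈ C.U i ∧ (∀ j, z ∈ (E j).U (k j)) ∧
    IK d c w (fun i y => f a i y - f b i y) z i k) →
  ∃ F, G.Sec C F ∧ ∀ a, ∀ z ∈ G.F, z ∈ V a → ∀ i k, z ∈ C.U i → (∀ j, z ∈ (E j).U (k j)) →
    IK d c w (fun i y => F i y - f a i y) z i k

/-- **NADK**: the theorem of Nadel on a model -/
def NADK (n : ℕ) : Prop := ForM n fun _ K _ _ M => ∀ (κ L : Div K) (k : ℕ) (D : Fin k → Div K)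
  (W : Fin k → Finset K) (c : Fin k → ℝ) (α : Type) (U : α → Set M.F) (h : α → K),
  IsCan M κ → IsInt L → (∀ j, IsInt (D j) ∧ 0 ≤ c j ∧ ∀ w ∈ W j, w ∈ M.H0 (D j)) →
  M.Amp (L - κ - ∑ j, c j • D j) → (∀ a, IsOpen (U a)) → (∀ x, ∃ a, x ∈ U a) →
  (∀ a, h a ∈ M.H0 L) → (∀ a b x, x ∈ U a → x ∈ U b → J M L D W c x (h a - h b)) →
  ∃ f ∈ M.H0 L, ∀ x, ∃ a, x ∈ U a ∧ J M L D W c x (f - h a)

/-- **KV**: `H¹(⌈D⌉) = 0` if `D - K` is ample and the fractional part of `D` has simple normal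
crossings -/
def KV (n : ℕ) : Prop := ForM n fun _ K _ _ M => ∀ (κ D : Div K) (T : Set (Place K))
  (h : M.F → K), Lg M κ T → (∀ P ∉ T, ∃ k : ℤ, D P = k) → M.Amp (D - κ) →
  (∀ x, ∀ᶠ y in 𝓝 x, Lc M y D (h x - h y)) → ∃ f, ∀ x, Lc M x D (f - h x)

/-- **CONN**: the connectedness lemma; `E` is exceptional -/
def CONN (n : ℕ) : Prop := ForM n fun _ K _ _ M => Cpt M → ∀ (κ Δ E : Div K)
  (T : Set (Place K)), Lg M κ T → (Δ.support : Set (Place K)) ⊆ T → M.Amp (-κ - Δ) → IsInt E →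
  0 ≤ E → -Δ ≤ E → M.H0 E ≤ M.H0 0 → IsPreconnected {x | Nk M Δ x}

/-- **RCONN**: the connectedness lemma along the fibres of the map given by `H`; the model is of
Fano type (`Δ₀`) over the image -/
def RCONN (n : ℕ) : Prop := ForM n fun _ K _ _ M => ∀ (κ Δ₀ Δ H E : Div K) (T : Set (Place K))
  (m : ℝ) (x : M.F), Lg M κ T → (Δ₀.support : Set (Place K)) ⊆ T →
  (Δ.support : Set (Place K)) ⊆ T → (∀ P, Δ₀ P < 1) → Δ₀ ≤ Δ → IsInt H → (∀ y, M.Free H y) →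
  M.Amp (m • H - κ - Δ₀) → M.Amp (m • H - κ - Δ) → IsInt E → 0 ≤ E → -Δ₀ ≤ E →
  (∀ (k : ℕ), ∀ f ∈ M.H0 ((k : ℝ) • H + E), f ∈ M.H0 ((k : ℝ) • H)) →
  IsPreconnected {y | Sm M H x y ∧ Nk M Δ y}

/-- **BOX**: a divergent integral -/
def BOX : Prop := ∀ (n : ℕ) (i : Fin n) (β a : ℝ), 1 < β → 0 ≤ a → ∃ c₀ : ℝ, ∀ c, c₀ ≤ c →
  ∀ (g : Cm n → ℝ≥0∞) (C : ℝ≥0∞), C ≠ ⊤ →
  (∀ᶠ z in 𝓝 (0 : Cm n), (∀ j, z j ≠ 0) → min
    (ENNReal.ofReal (‖z i‖ ^ (-2 * β) * ∏ j ∈ Finset.univ.erase i, ‖z j‖ ^ (2 * a)))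
    (ENNReal.ofReal (‖z‖ ^ (-2 * c) * ∏ j, ‖z j‖ ^ (2 * a))) ≤ C * g z) → ¬ LI g 0

/-- **L2**: square integrable quotients are regular -/
def L2 (n : ℕ) : Prop := ForM n fun _ K _ _ M => ∀ (x : M.F) (a b : K), a ∈ M.O x → b ∈ M.O x →
  b ≠ 0 → (LIm M x fun z => nv M a z * nv M b z ^ (-1 : ℝ)) → a / b ∈ M.O x

end Vale.Agent.P277Z.Kv
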