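import Vale.Agent.P287D.Kv.St
import Vale.Agent.P277Z.Lift.Gd
import Vale.Agent.P277Z.Van.Skl
import Vale.Agent.P277Z.FI.Box

/-!
# P287D, block KV: square integrable quotients are regular
-/

open scoped Topology ENNReal
open Set Filter MeasureTheory
open Vale.Agent.P272.K (Cm Chart At)
open Vale.Agent.P297Z.Pl

noncomputable section

namespace Vale.Agent.P277Z.Kv

open Lift FI

theorem null_zero {n : ℕ} {τ : Cm n → ℂ} {p : Cm n} (hτ : AnalyticAt ℂ τ p)
    (h : ¬ ∀ᶠ z in 𝓝 p, τ z = 0) :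
    ∃ N : Cm n → Prop, (∀ᵐ z, N z) ∧ ∀ᶠ z in 𝓝 p, N z → τ z ≠ 0 := by
  obtain ⟨ε, e0, V, hV, e1⟩ := int0 hτ h
  obtain ⟨O, hO, o1, o2⟩ := _root_.mem_nhds_iff.1 (inter_mem hV hτ.eventually_analyticAt)
  have m : MeasurableSet (O \ (O ∩ τ ⁻¹' {0}ᶜ)) := o1.measurableSet.diff
    (ContinuousOn.isOpen_inter_preimage
      (fun z hz => (hO hz).2.continuousAt.continuousWithinAt) o1 isOpen_compl_singleton).measurableSet
  refine ⟨fun z => z ∉ O \ (O ∩ τ ⁻¹' {0}ᶜ), ?_, ?_⟩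
  · refine measure_eq_zero_iff_ae_notMem.1 (by_contra fun k => e1 (top_unique (le_trans
      (le_of_eq ?_) (lintegral_mono_set (s := O \ (O ∩ τ ⁻¹' {0}ᶜ)) fun z hz => (hO hz.1).1))))
    rw [setLIntegral_congr_fun m (g := fun _ => ⊤) fun z hz => ?_, setLIntegral_const,
      ENNReal.top_mul k]
    have : τ z = 0 := by_contra fun e => hz.2 ⟨hz.1, e⟩
    simp [this, ENNReal.zero_rpow_of_neg (neg_lt_zero.2 e0)]
  · filter_upwards [o1.mem_nhds o2] with z hz k e using k ⟨hz, fun a => a.2 e⟩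

theorem l2 (n : ℕ) : L2 n := fun N K _ _ M hM x a b ha hb b0 h => by
  have hL : Loc M := box.loc n N K M hM
  by_cases a0 : a = 0
  · rw [a0, zero_div]
    exact zero_mem _
  refine hL.mem x _ fun P ⟨t, ht⟩ => by_contra fun lt => ?_
  have t0 := gn_ne ht
  rw [ord_div P a0 b0] at lt
  obtain ⟨k, hk⟩ := Int.eq_ofNat_of_zero_le (ord_nonneg_of_mem P (ht.le a ha))
  have dv (c) (hc : c ∈ M.O x) (c0 : c ≠ 0) (l : (k : ℤ) ≤ P.ord c) : c / t ^ k ∈ M.O x :=
    hL.mem x _ fun Q hQ => by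
      rw [ord_div Q c0 (pow_ne_zero _ t0), ord_pow]
      by_cases e : Q = P
      · rw [e, ht.ord]
        omega
      · rw [hL.other x P Q t ht hQ e]
        simpa using ord_nonneg_of_mem Q ((ct_of_on hQ) c hc)
  have a1 := dv a ha a0 hk.ge
  have b1 := dv b hb b0 (by omega)
  have tk : t ^ k ∈ M.O x := pow_mem ht.mem k
  have tk0 := pow_ne_zero k t0
  have b2 := ht.dvd _ b1 (by rw [ord_div P b0 tk0, ord_pow, ht.ord]; omega)
  have he := Lo.at_chartAt (n := n) (x : M.W)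
  obtain ⟨Z, z1, z2⟩ := null_zero (tk _ he) fun k => M.not_zero tk0 (cht_back he.2 k)
  have ea := nv_mul a1 tk
  have eb := nv_mul b1 tk
  have ec := M.nhds_mul ht.mem b2
  rw [div_mul_cancel₀ _ tk0] at ea eb
  rw [mul_div_cancel₀ _ t0] at ec
  have li : LI (fun z => nv M (a / t ^ k) ((chartAt (Cm n) (x : M.W)).symm z) *
      nv M (b / t ^ k) ((chartAt (Cm n) (x : M.W)).symm z) ^ (-1 : ℝ)) _ :=
    (h _ he).mono_ae ENNReal.one_ne_top z1 (by
      filter_upwards [z2, (Lo.tendsto_symm he).eventually (ea.and eb)] with z k1 k2 k3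
      have u : nv M (t ^ k) ((chartAt (Cm n) (x : M.W)).symm z) ≠ 0 := by
        simpa [nv] using k1 k3
      rw [one_mul, k2.1, k2.2, ENNReal.rpow_neg_one, ENNReal.rpow_neg_one,
        ENNReal.mul_inv (.inr (nv_ne_top _ _)) (.inr u), mul_mul_mul_comm,
        ENNReal.mul_inv_cancel u (nv_ne_top _ _), mul_one])
  obtain ⟨c, c1, c2⟩ := hL.red x P t ht _ a1 (cht_back he.2 (by
    filter_upwards [li.ev, (a1 _ he).eventually_analyticAt, (b1 _ he).eventually_analyticAt,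
      (Lo.tendsto_symm he).eventually ec] with z k1 k2 k3 k4 k5
    exact Van.vans n _ _ z k2 k3 (by rw [k4, k5, zero_mul]) k1))
  have b3 : a / t ^ k / t ∈ M.O x := M.mem_O_of c1 (by
    filter_upwards [gen_of_nhds c2, M.at_pt (M.val_div (a / t ^ k) t) x,
      M.at_pt (M.val_ne t0) x] with z k1 k2 k3
    rw [k2, k1, mul_div_cancel_left₀ _ k3])
  have b4 := ord_nonneg_of_mem P (ht.le _ b3)
  rw [ord_div P (div_ne_zero a0 tk0) t0, ord_div P a0 tk0, ord_pow, ht.ord] at b4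
  omega

end Vale.Agent.P277Z.Kv
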