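import Vale.Agent.P287D.Kv.N2
import Vale.Agent.P287D.Kv.L2
import Vale.Agent.P277Z.F5.Fin

/-!
# P287D, block KV: the vanishing theorem of Kawamata and Viehweg
-/

set_option linter.all false

open scoped Topology ENNReal
open Set Filter MeasureTheory
open Vale.Agent.P272.K (Cm Chart At)
open Vale.Agent.P297 (Place)
open Vale.Agent.P297Z.Pl

noncomputable section

namespace Vale.Agent.P277Z.Kv

open Lift FI F5

variable {n N : ℕ} {K : Type} [Field K] [Algebra ℂ K] {M : Mdl n N K}

theorem lc_mem (hL : Loc M) {x : M.F} {D : Div K} {f t : K} (ht : LG M x (ce D) t) :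
    Lc M x D f ↔ f * t ∈ M.O x := lc_iff.trans (ls_iff hL ht)

theorem exists_pole (hL : Loc M) {L : Div K} {α : Type} [Fintype α] (h : α → K) :
    ∃ Z : Div K, IsInt Z ∧ 0 ≤ Z ∧ ∀ a, h a ∈ M.H0 (L + Z) := by
  have k : ∀ a, 0 ≤ ce ((-M.div (h a) - L) ⊔ 0) := fun a P =>
    Int.cast_nonneg (Int.ceil_nonneg (by simp))
  refine ⟨∑ a, ce ((-M.div (h a) - L) ⊔ 0), IsInt.sum _ fun _ _ => ce_int _,
    Finset.sum_nonneg fun a _ => k a, fun a => mem_H0_div hL fun P => ?_⟩
  have k1 := Finset.single_le_sum (fun a _ => k a) (Finset.mem_univ a) P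
  have k2 := Int.le_ceil (((-M.div (h a) - L) ⊔ 0) P)
  have k3 := le_sup_left (a := -M.div (h a) - L) (b := 0) P
  simp only [ce_apply, Finsupp.add_apply, Finsupp.sub_apply, Finsupp.neg_apply,
    Finsupp.zero_apply] at *
  linarith

theorem exists_theta (T : Finset (Place K)) {B : Place K → ℝ} (h : ∀ P ∈ T, B P < 1) :
    ∃ θ : ℝ, θ < 1 ∧ ∀ P ∈ T, B P ≤ θ :=
  let ⟨θ, h1, h2⟩ := (((eventually_all_finset T).2 fun P hP =>
    (eventually_ge_nhds (h P hP)).filter_mono nhdsWithin_le_nhds).and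
      (self_mem_nhdsWithin (s := Iio (1 : ℝ)))).exists
  ⟨θ, h2, h1⟩

theorem sum_T {T : Finset (Place K)} {B : Div K} (h : (B.support : Set (Place K)) ⊆ T) :
    ∑ P : T, B P • Finsupp.single (P : Place K) (1 : ℝ) = B := by
  rw [Finset.sum_coe_sort T fun P => B P • Finsupp.single P (1 : ℝ), ← eq_sum_single h]

theorem cp_sw (hL : Loc M) {T : Finset (Place K)} {x : M.F} {a : T → K} {γ : T → ℝ} {θ : ℝ}
    (ha : ∀ P, LG M x (Finsupp.single P.1 1) (a P)) (h : ∀ P, γ P ≤ θ) :
    Cp (𝓝 (x : M.W)) (fun z => ∏ P, nv M (a P) z ^ (-γ P)) (sw M T x θ) :=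
  Cp.prod _ fun P _ => ((nv_bdd ((ha P).mem1 hL)).anti (nv_ne_top _) (h P)).trans
    ((ha P).cp1 hL (lg_eqD hL (IsInt.single _)) _)

theorem kv2_of (h2 : L2 n) : KV2 n := by
  intro N K _ _ M hM κ D T h hT hD hN hh
  have hL : Loc M := locA n N K M hM
  lift T to Finset (Place K) using hT.fin
  haveI : CompactSpace M.F := isCompact_iff_compactSpace.1 M.cpt
  obtain ⟨s, hs⟩ := CompactSpace.elim_nhds_subcover
    (fun x => interior {y | Lc M y D (h x - h y)}) fun x => interior_mem_nhds.2 (hh x)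
  obtain ⟨Z, z1, z2, z3⟩ := exists_pole hL (L := ce D) fun a : s => h a
  set B := ce D - D
  have b1 : ∀ P, 0 ≤ B P ∧ B P < 1 := fun P =>
    ⟨sub_nonneg.2 (Int.le_ceil _), sub_lt_iff_lt_add'.2 (Int.ceil_lt_add_one _)⟩
  have b2 : (B.support : Set (Place K)) ⊆ T := fun P hP => by_contra fun e => by
    obtain ⟨k, hk⟩ := hD P e
    simp [B, ce_apply, hk] at hP
  obtain ⟨θ, t1, t2⟩ := exists_theta T fun P _ => (b1 P).2
  obtain ⟨f, f1, f2⟩ := nad2 hM (ι := Option T) (U := fun a : s => interior {y | Lc M y D (h a - h y)})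
    (D := fun j => j.elim Z fun P => Finsupp.single P 1) (W := fun _ => {1})
    (c := fun j => j.elim 1 fun P => B P) hT (IsInt.add (ce_int D) z1) (fun j => by
      cases j with
      | none => exact ⟨z1, zero_le_one, fun w hw => Finset.mem_singleton.1 hw ▸ one_mem_H0 z2⟩
      | some j => exact ⟨IsInt.single _, (b1 _).1, fun w hw =>
          Finset.mem_singleton.1 hw ▸ one_mem_single _⟩) (by
      convert hN using 1
      simp only [Fintype.sum_option, Option.elim, sum_T b2, one_smul, B]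
      abel) (fun _ => isOpen_interior) (fun x => by
      simpa using hs.ge (mem_univ x)) z3 t1 fun a b x ha hb t₀ t k1 k2 => by
      have k3 : LG M x (ce D) (t₀ / t none) := ⟨div_ne_zero k1.1 (k2 none).1, fun R hR => by
        rw [ord_div R k1.1 (k2 none).1, Int.cast_sub, k1.2 R hR, (k2 none).2 R hR]; simp⟩
      have ha' := interior_subset ha
      have hb' := interior_subset hb
      have k4 := (lc_mem hL k3).1 (Lc.sub ha' hb')
      have k5 := nv_dvd k4 ((k2 none).mem hL (one_mem_H0 z2))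
      rw [sub_sub_sub_cancel_right, one_mul, mul_assoc, div_mul_cancel₀ _ (k2 none).1] at k5
      refine (Cp.of_le (.of_forall fun z => le_of_eq ?_)).trans
        ((((k5.mul (Cp.refl (f := fun z => nv M (t none) z ^ (-1 : ℝ)))).trans
          (Cp.of_le (g := fun _ => 1) (.of_forall fun z => by
            rw [ENNReal.rpow_neg_one]; exact ENNReal.mul_inv_le_one _))).mul
          (cp_sw hL (fun P => k2 (some P)) fun P => t2 P P.2)).trans (by simpa using Cp.refl))
      simp only [wq, Fintype.prod_option, Option.elim, Finset.sum_singleton, one_mul, mul_assoc]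
  refine ⟨f, fun x => ?_⟩
  obtain ⟨a, a1, a2⟩ := f2 x
  have k1 := lg_eqD (x := x) hL (ce_int D)
  have k2 := lg_eqD (x := x) hL z1
  have k3 := fun P : T => lg_eqD (x := x) hL (IsInt.single P.1)
  have k4 := a2 _ (fun j => j.elim (eqD M x Z) fun P => eqD M x (Finsupp.single P 1)) (k1.mul k2)
    fun j => by
      cases j with
      | none => exact k2
      | some j => exact k3 j
  have k5 := h2 N K M hM x _ _ ((k1.mul k2).mem hL (sub_mem f1 (z3 a)))
    (by simpa using k2.mem hL (one_mem_H0 z2)) k2.1 (k4.cp (by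
      have k6 := (Cp.refl (f := fun z => nv M ((f - h a) * (eqD M x (ce D) * eqD M x Z)) z *
        nv M (eqD M x Z) z ^ (-1 : ℝ))).mul (Cp.prod Finset.univ fun P _ =>
          (nv_bdd ((k3 P).mem1 hL)).neg (b1 P).1)
      simpa [wq, mul_assoc] using k6))
  rw [← mul_assoc, mul_div_cancel_right₀ _ k2.1, ← lc_mem hL k1] at k5
  have a3 := interior_subset a1
  simpa using Lc.sub k5 (Lc.sub (Or.inl rfl) a3)

theorem kv2 (n : ℕ) : KV2 n := kv2_of (l2 n)

theorem kv (n : ℕ) : KV n := kv_of (locA n) (nadk n) (l2 n)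

theorem conn2 (n : ℕ) : CONN2 n := conn2_of (locA n) (cp tb n (ar tb n)) (kv2 n)

theorem conn (n : ℕ) : CONN n := conn_of (locA n) (cp tb n (ar tb n)) (kv n)

end Vale.Agent.P277Z.Kv
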