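import Vale.Agent.P287D.Kv.St

/-!
# P287D, block KV: a divergent integral
-/

open scoped Topology ENNReal
open Set Filter MeasureTheory
open Vale.Agent.P272.K (Cm)

noncomputable section

namespace Vale.Agent.P277Z.Kv

open Lift

theorem box_norm {r e : ℝ} (h0 : 0 < r) (h3 : r ≤ 1 / 3) {w : ℂ}
    (h : w ∈ Metric.ball (((2 * r ^ e : ℝ) : ℂ)) (r ^ e)) : r ^ e ≤ ‖w‖ ∧ ‖w‖ ≤ r ^ (e - 1) := by
  have p : 0 < r ^ e := Real.rpow_pos_of_pos h0 e
  have a : ‖((2 * r ^ e : ℝ) : ℂ)‖ = 2 * r ^ e := by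
    rw [Complex.norm_real, Real.norm_of_nonneg (by positivity)]
  have b := abs_norm_sub_norm_le w ((2 * r ^ e : ℝ) : ℂ)
  rw [mem_ball_iff_norm] at h
  rw [a, abs_le] at b
  refine ⟨by linarith [b.1], ?_⟩
  rw [Real.rpow_sub_one h0.ne', le_div_iff₀ h0]
  nlinarith [b.2, norm_nonneg w]

theorem box_vol {n : ℕ} {r : ℝ} (h0 : 0 < r) (e : Fin n → ℝ) :
    ENNReal.ofReal (r ^ (2 * ∑ j, e j)) ≤ volume (univ.pi fun j =>
      Metric.ball (((2 * r ^ e j : ℝ) : ℂ)) (r ^ e j)) := by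
  rw [volume_pi_pi, Finset.mul_sum, Real.rpow_sum_of_pos h0,
    ENNReal.ofReal_prod_of_nonneg fun j _ => (Real.rpow_pos_of_pos h0 _).le]
  refine Finset.prod_le_prod' fun j _ => ?_
  rw [Complex.volume_ball, mul_comm 2, Real.rpow_mul h0.le, Real.rpow_two,
    ENNReal.ofReal_pow (Real.rpow_pos_of_pos h0 _).le]
  refine le_mul_of_one_le_right' ?_
  exact_mod_cast (show (1 : ℝ) ≤ Real.pi by linarith [Real.pi_gt_three])

theorem box_prod {n : ℕ} {r a : ℝ} (h0 : 0 < r) (ha : 0 ≤ a) {e : Fin n → ℝ} {z : Cm n}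
    (h : ∀ j, r ^ e j ≤ ‖z j‖) (s : Finset (Fin n)) :
    r ^ (2 * a * ∑ j ∈ s, e j) ≤ ∏ j ∈ s, ‖z j‖ ^ (2 * a) := by
  rw [Finset.mul_sum, Real.rpow_sum_of_pos h0]
  refine Finset.prod_le_prod (fun j _ => (Real.rpow_pos_of_pos h0 _).le) fun j _ => ?_
  rw [mul_comm, Real.rpow_mul h0.le]
  exact Real.rpow_le_rpow (Real.rpow_pos_of_pos h0 _).le (h j) (by positivity)

/-- **BOX** -/
theorem box : BOX := by
  intro n i β a hβ ha
  obtain ⟨S, hS⟩ : ∃ S : ℝ, S = ∑ _j ∈ Finset.univ.erase i, (2 : ℝ) := ⟨_, rfl⟩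
  obtain ⟨m, m1, m2⟩ : ∃ m : ℝ, 1 ≤ m ∧ 2 * a * S + 2 * S + 3 ≤ m * (2 * (β - 1)) :=
    ⟨max 1 ((2 * a * S + 2 * S + 3) / (2 * (β - 1))), le_max_left _ _,
      (div_le_iff₀ (by linarith)).1 (le_max_right _ _)⟩
  obtain ⟨e, ei, ej⟩ : ∃ e : Fin n → ℝ, e i = m + 1 ∧ ∀ j, j ≠ i → e j = 2 :=
    ⟨Function.update (fun _ => 2) i (m + 1), by simp, fun j h => by simp [h]⟩
  have e1 : ∑ j ∈ Finset.univ.erase i, e j = S :=
    hS ▸ Finset.sum_congr rfl fun j h => ej j (Finset.ne_of_mem_erase h)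
  have e2 : ∑ j, e j = m + 1 + S := by
    rw [← Finset.add_sum_erase _ _ (Finset.mem_univ i), ei, e1]
  have S0 : 0 ≤ S := hS ▸ Finset.sum_nonneg fun _ _ => zero_le_two
  refine ⟨(a + 1) * (m + 1 + S) + 1, fun c hc g C hC h ⟨V, hV, hg⟩ => ?_⟩
  have c0 : 0 ≤ c := le_trans (by positivity) hc
  obtain ⟨δ, δ0, hδ⟩ := Metric.mem_nhds_iff.1 (inter_mem hV h)
  have key : ∀ r : ℝ, 0 < r → r ≤ 1 / 3 → r < δ → ENNReal.ofReal r⁻¹ ≤ C * ∫⁻ z in V, g z := by
    intro r h0 h3 hr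
    have r1 : r ≤ 1 := by linarith
    have nz : ∀ z ∈ univ.pi fun j => Metric.ball (((2 * r ^ e j : ℝ) : ℂ)) (r ^ e j),
        (∀ j, r ^ e j ≤ ‖z j‖ ∧ ‖z j‖ ≤ r ^ (e j - 1)) ∧ ‖z‖ ≤ r := fun z hz =>
      ⟨fun j => box_norm h0 h3 (hz j trivial), (pi_norm_le_iff_of_nonneg h0.le).2 fun j =>
        (box_norm h0 h3 (hz j trivial)).2.trans (by
          refine (Real.rpow_le_rpow_of_exponent_ge h0 r1 (?_ : 1 ≤ e j - 1)).trans_eq
            (Real.rpow_one r)
          by_cases k : j = i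
          · rw [k, ei]; linarith
          · rw [ej j k]; linarith)⟩
    have sub : ∀ z ∈ univ.pi fun j => Metric.ball (((2 * r ^ e j : ℝ) : ℂ)) (r ^ e j),
        z ∈ Metric.ball (0 : Cm n) δ := fun z hz => mem_ball_zero_iff.2 ((nz z hz).2.trans_lt hr)
    calc ENNReal.ofReal r⁻¹
        = ENNReal.ofReal (r ^ (-1 - 2 * ∑ j, e j)) * ENNReal.ofReal (r ^ (2 * ∑ j, e j)) := by
          rw [← ENNReal.ofReal_mul (Real.rpow_pos_of_pos h0 _).le, ← Real.rpow_add h0,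
            sub_add_cancel, Real.rpow_neg_one]
      _ ≤ ∫⁻ _z in univ.pi fun j => Metric.ball (((2 * r ^ e j : ℝ) : ℂ)) (r ^ e j),
          ENNReal.ofReal (r ^ (-1 - 2 * ∑ j, e j)) := by
          rw [setLIntegral_const]
          exact mul_le_mul_right (box_vol h0 e) _
      _ ≤ ∫⁻ z in univ.pi fun j => Metric.ball (((2 * r ^ e j : ℝ) : ℂ)) (r ^ e j), C * g z := by
          refine setLIntegral_mono' (MeasurableSet.univ_pi fun j => measurableSet_ball)
            fun z hz => le_trans (le_min ?_ ?_) ((hδ (sub z hz)).2 fun j => ?_)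
          · refine ENNReal.ofReal_le_ofReal (le_trans ?_ (mul_le_mul (?_ : r ^ (-2 * β * m) ≤ _)
              (box_prod h0 ha (fun j => ((nz z hz).1 j).1) _) (Real.rpow_pos_of_pos h0 _).le
              (Real.rpow_nonneg (norm_nonneg _) _)))
            · rw [← Real.rpow_add h0, e1, e2]
              exact Real.rpow_le_rpow_of_exponent_ge h0 r1 (by linarith)
            · have k := (nz z hz).1 i
              rw [ei, add_sub_cancel_right] at k
              rw [mul_comm, Real.rpow_mul h0.le]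
              exact Real.rpow_le_rpow_of_nonpos ((Real.rpow_pos_of_pos h0 _).trans_le k.1) k.2
                (by linarith)
          · refine ENNReal.ofReal_le_ofReal (le_trans ?_ (mul_le_mul (?_ : r ^ (-2 * c) ≤ _)
              (box_prod h0 ha (fun j => ((nz z hz).1 j).1) _) (Real.rpow_pos_of_pos h0 _).le
              (Real.rpow_nonneg (norm_nonneg _) _)))
            · rw [← Real.rpow_add h0, e2]
              exact Real.rpow_le_rpow_of_exponent_ge h0 r1 (by linarith)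
            · exact Real.rpow_le_rpow_of_nonpos (((Real.rpow_pos_of_pos h0 _).trans_le
                ((nz z hz).1 i).1).trans_le (norm_le_pi_norm z i)) (nz z hz).2 (by linarith)
          · exact norm_pos_iff.1 ((Real.rpow_pos_of_pos h0 _).trans_le ((nz z hz).1 j).1)
      _ ≤ ∫⁻ z in V, C * g z := lintegral_mono_set fun z hz => (hδ (sub z hz)).1
      _ = _ := lintegral_const_mul' _ _ hC
  have fin := ENNReal.mul_ne_top hC hg
  obtain ⟨N, hN⟩ := exists_nat_gt (max (C * ∫⁻ z in V, g z).toReal (max 3 δ⁻¹))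
  have N3 : (3 : ℝ) < N := (le_max_of_le_right (le_max_left _ _)).trans_lt hN
  have k := key (N : ℝ)⁻¹ (by positivity) (by rw [one_div]; exact inv_anti₀ (by norm_num) N3.le)
    (inv_lt_of_inv_lt₀ δ0 ((le_max_of_le_right (le_max_right _ _)).trans_lt hN))
  rw [inv_inv, ENNReal.ofReal_le_iff_le_toReal fin] at k
  exact absurd ((le_max_left _ _).trans_lt hN) (not_lt.2 k)

end Vale.Agent.P277Z.Kv
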