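import Vale.Agent.P287D.Kv.St2
import Vale.Agent.P277Z.Lift.Gd

/-!
# P287D, block KV: the vanishing theorem and the connectedness lemma from the theorem of Nadel
-/

set_option linter.all false

open scoped Topology ENNReal Classical
open Set Filter
open Vale.Agent.P297 (Place)
open Vale.Agent.P297Z.Pl

noncomputable section

namespace Vale.Agent.P277Z.Kv

open Lift FI F5

variable {n N : ℕ} {K : Type} [Field K] [Algebra ℂ K] {M : Mdl n N K} {x : M.F} {D : Div K}
  {f g : K}

/-- the round up -/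
def ce (D : Div K) : Div K := D.mapRange (fun r => (⌈r⌉ : ℝ)) (by simp)

theorem ce_apply (D : Div K) (P : Place K) : ce D P = ⌈D P⌉ := rfl

theorem ce_int (D : Div K) : IsInt (ce D) := fun _ => ⟨_, rfl⟩

theorem lc_iff : Lc M x D f ↔ Ls M x (ce D) f :=
  or_congr_right (forall₂_congr fun P _ => by
    rw [ce_apply, ← Int.cast_add, Int.cast_nonneg_iff, ← sub_lt_iff_lt_add',
      show (-1 - P.ord f : ℝ) = ((-1 - P.ord f : ℤ) : ℝ) by push_cast; rfl, ← Int.lt_ceil]
    omega)

theorem Ls.add (hf : Ls M x D f) (hg : Ls M x D g) : Ls M x D (f + g) := by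
  by_cases f0 : f = 0
  · simpa [f0] using hg
  by_cases g0 : g = 0
  · simpa [g0] using hf
  refine or_iff_not_imp_left.2 fun h P hP => ?_
  have a := min_ord_le_add P f0 g0 h
  have b := hf.resolve_left f0 P hP
  have c := hg.resolve_left g0 P hP
  rcases min_le_iff.1 a with k | k <;> have k' := Int.cast_le (R := ℝ).2 k <;> linarith

theorem Ls.neg (hf : Ls M x D f) : Ls M x D (-f) :=
  hf.imp neg_eq_zero.2 fun h P hP => by simpa using h P hP

theorem Lc.add (hf : Lc M x D f) (hg : Lc M x D g) : Lc M x D (f + g) :=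
  lc_iff.2 ((lc_iff.1 hf).add (lc_iff.1 hg))

theorem Lc.neg (hf : Lc M x D f) : Lc M x D (-f) := lc_iff.2 (lc_iff.1 hf).neg

theorem Lc.sub (hf : Lc M x D f) (hg : Lc M x D g) : Lc M x D (f - g) := by
  rw [sub_eq_add_neg]; exact hf.add hg.neg

theorem ls_iff (hL : Loc M) {t : K} (ht : LG M x D t) : Ls M x D f ↔ f * t ∈ M.O x := by
  by_cases h0 : f = 0
  · simp [h0, Ls]
  refine ⟨fun h => hL.mem x _ fun R hR => ?_, fun h => Or.inr fun R hR => ?_⟩
  · have := h.resolve_left h0 R hR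
    rw [← ht.2 R hR] at this
    rw [ord_mul R h0 ht.1]
    exact_mod_cast this
  · have := ord_nonneg_of_mem R (ct_of_on hR _ h)
    rw [ord_mul R h0 ht.1] at this
    rw [← ht.2 R hR]
    exact_mod_cast this

theorem lg_div {E : Div K} {a b : K} (ha : LG M x (D + E) a) (hb : LG M x E b) :
    LG M x D (a / b) :=
  ⟨div_ne_zero ha.1 hb.1, fun R hR => by
    rw [ord_div R ha.1 hb.1, Int.cast_sub, ha.2 R hR, hb.2 R hR, Finsupp.add_apply,
      add_sub_cancel_right]⟩

/-- the multiplier ideal of `Z + ∑ γ j • Q j` -/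
theorem j_iff (hL : Loc M) (h2 : ∀ (x : M.F) (a b : K), a ∈ M.O x → b ∈ M.O x → b ≠ 0 →
      (LIm M x fun z => nv M a z * nv M b z ^ (-1 : ℝ)) → a / b ∈ M.O x) {k : ℕ}
    {Q : Fin k → Place K} (hQ : Function.Injective Q) (hs : M.Snc (range Q)) {γ : Fin k → ℝ}
    (hγ : ∀ j, 0 ≤ γ j ∧ γ j < 1) {L Z : Div K} (iL : IsInt L) (iZ : IsInt Z) (h0 : 0 ≤ Z)
    (hf : f ∈ M.H0 (L + Z)) :
    J M (L + Z) (Fin.cons Z fun j => Finsupp.single (Q j) 1 : Fin (k + 1) → Div K) (fun _ => {1})
      (Fin.cons 1 γ : Fin (k + 1) → ℝ) x f ↔ Ls M x L f := by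
  have e : ∀ (t₀ : K) (t : Fin (k + 1) → K), (fun z => nv M (f * t₀) z * ∏ j,
      (∑ w ∈ ({1} : Finset K), nv M (w * t j) z) ^ (-(Fin.cons 1 γ : Fin (k + 1) → ℝ) j)) =
      fun z => nv M (f * t₀) z * nv M (t 0) z ^ (-1 : ℝ) * ∏ j, nv M (t j.succ) z ^ (-γ j) :=
    fun t₀ t => funext fun z => by simp [Fin.prod_univ_succ, mul_assoc]
  have m : ∀ {b}, LG M x Z b → b ∈ M.O x := fun hb => by
    simpa using hb.mem hL (one_mem_H0 h0)
  refine ⟨fun h => ?_, fun h t₀ t k1 k2 => ?_⟩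
  · have a1 := lg_eqD (x := x) hL (IsInt.add iL iZ)
    have a2 := lg_eqD (x := x) hL iZ
    have a3 := fun j => lg_eqD (x := x) hL (IsInt.single (Q j))
    have a4 := h _ (Fin.cons (eqD M x Z) fun j => eqD M x (Finsupp.single (Q j) 1)) a1
      (Fin.cases a2 a3)
    rw [e] at a4
    rw [ls_iff hL (lg_div a1 a2), ← mul_div_assoc]
    refine h2 x _ _ (a1.mem hL hf) (m a2) a2.1 (a4.cp ?_)
    simpa using (Cp.refl (l := 𝓝 (x : M.W)) (f := fun z => nv M (f * eqD M x (L + Z)) z *
      nv M (eqD M x Z) z ^ (-1 : ℝ))).mul (Cp.prod Finset.univ fun j _ =>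
        (nv_bdd ((a3 j).mem1 hL)).neg (hγ j).1)
  · rw [e]
    have a1 : LG M x Z (t 0) := k2 0
    refine (lim_snc hL hQ hs (a := fun j => t j.succ) (fun j => k2 j.succ) fun j => (hγ j).2).cp ?_
    have a2 := (ls_iff hL (lg_div k1 a1)).1 h
    have a3 := nv_dvd a2 (m a1)
    rw [mul_assoc, div_mul_cancel₀ _ a1.1] at a3
    have a4 := ((a3.mul (Cp.refl (f := fun z => nv M (t 0) z ^ (-1 : ℝ)))).trans
      (Cp.of_le (g := fun _ => 1) (.of_forall fun z => by
        rw [ENNReal.rpow_neg_one]; exact ENNReal.mul_inv_le_one _))).mul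
      (Cp.refl (f := fun z => ∏ j, nv M (t j.succ) z ^ (-γ j)))
    simpa only [one_mul] using a4

theorem kv_of (hL : LOC n) (h1 : NADK n) (h2 : L2 n) : KV n := by
  intro N K _ _ M hM κ D T h hT hD hA hh
  have l := hL N K M hM
  haveI : CompactSpace M.F := isCompact_iff_compactSpace.1 M.cpt
  lift T to Finset (Place K) using hT.fin
  obtain ⟨s, hs⟩ := isCompact_univ.elim_finite_subcover
    (fun x => interior {y | Lc M y D (h x - h y)}) (fun _ => isOpen_interior)
    fun x _ => mem_iUnion.2 ⟨x, mem_interior_iff_mem_nhds.2 (hh x)⟩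
  set Z : Div K := ∑ a ∈ s, (-(M.div (h a) + ce D))⁺
  have z0 : 0 ≤ Z := Finset.sum_nonneg fun _ _ => posPart_nonneg _
  have zi : IsInt Z := IsInt.sum _ fun a _ P => by
    obtain ⟨k, hk⟩ := IsInt.neg (IsInt.add (int_div l (h a)) (ce_int D)) P
    exact ⟨max k 0, by rw [posPart_def, Finsupp.sup_apply, hk]; simp⟩
  have zh : ∀ a : s, h a ∈ M.H0 (ce D + Z) := fun a => mem_H0_div l (by
    have := (le_posPart _).trans (Finset.single_le_sum (fun a _ =>
      posPart_nonneg (-(M.div (h a) + ce D))) a.2)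
    rwa [← add_assoc, ← neg_le_iff_add_nonneg'])
  set Q : Fin T.card → Place K := fun j => T.equivFin.symm j
  have q1 : Function.Injective Q := Subtype.val_injective.comp T.equivFin.symm.injective
  have q2 : M.Snc (range Q) := snc_mono hT.snc (range_subset_iff.2 fun j => (T.equivFin.symm j).2)
  have q3 : ∀ j, 0 ≤ (ce D - D) (Q j) ∧ (ce D - D) (Q j) < 1 := fun j =>
    ⟨sub_nonneg.2 (Int.le_ceil _), sub_lt_iff_lt_add'.2 (Int.ceil_lt_add_one _)⟩
  have key := fun x f => j_iff (x := x) (f := f) l (h2 N K M hM) q1 q2 q3 (ce_int D) zi z0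
  have ins : ∀ {a x}, x ∈ interior {y | Lc M y D (h a - h y)} → Lc M x D (h a - h x) :=
    fun {a x} k => (interior_subset k : x ∈ {y | Lc M y D (h a - h y)})
  obtain ⟨f, f1, f2⟩ := h1 N K M hM κ (ce D + Z) (T.card + 1)
    (Fin.cons Z fun j => Finsupp.single (Q j) 1) (fun _ => {1})
    (Fin.cons 1 fun j => (ce D - D) (Q j)) s (fun a => interior {y | Lc M y D (h a - h y)})
    (fun a => h a) hT.can (IsInt.add (ce_int D) zi)
    (Fin.cases ⟨zi, zero_le_one, fun w hw => Finset.mem_singleton.1 hw ▸ one_mem_H0 z0⟩ fun j =>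
      ⟨IsInt.single _, (q3 j).1, fun w hw => Finset.mem_singleton.1 hw ▸ one_mem_single _⟩)
    (Eq.mp (congrArg M.Amp (by
      have e1 : ∑ R ∈ T, (ce D - D) R • Finsupp.single R (1 : ℝ) = ce D - D := by
        simp only [Finsupp.smul_single, smul_eq_mul, mul_one]
        refine (Finsupp.sum_of_support_subset (ce D - D) (fun R hR => by_contra fun e => ?_) _
          (by simp)).symm.trans (ce D - D).sum_single
        obtain ⟨k, hk⟩ := hD R e
        exact Finsupp.mem_support_iff.1 hR (by simp [ce_apply, hk])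
      simp only [Fin.sum_univ_succ, Fin.cons_zero, Fin.cons_succ, one_smul]
      rw [T.equivFin.symm.sum_comp fun R : T => (ce D - D) R • Finsupp.single (R : Place K) (1 : ℝ),
        Finset.sum_coe_sort T fun R => (ce D - D) R • Finsupp.single R (1 : ℝ), e1]
      abel)) hA) (fun _ => isOpen_interior)
    (fun x => by simpa using hs (mem_univ x)) zh fun a b x ha hb =>
      (key x _ (sub_mem (zh a) (zh b))).2 (lc_iff.1 (by
        simpa using Lc.sub (ins ha) (ins hb)))
  refine ⟨f, fun x => ?_⟩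
  obtain ⟨a, a1, a2⟩ := f2 x
  simpa using (lc_iff.2 ((key x _ (sub_mem f1 (zh a))).1 a2)).add (ins a1)

theorem nk_closed (hL : Loc M) (Δ : Div K) : IsClosed {x | Nk M Δ x} := by
  refine isOpen_compl_iff.1 (isOpen_iff_mem_nhds.2 fun x hx => ?_)
  filter_upwards [(eventually_all_finite Δ.support.finite_toSet).2 fun R _ => hL.near x R]
    with y hy ⟨P, a, b⟩
  exact hx ⟨P, hy P (Finsupp.mem_support_iff.2 (by linarith)) a, b⟩

theorem conn_core (l : Loc M) (hC : ∀ f : K, f ≠ 0 → 0 ≤ M.div f → M.div f = 0) {Δ E : Div K}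
    (h : ∀ h : M.F → K, (∀ x, ∀ᶠ y in 𝓝 x, Lc M y (-Δ) (h x - h y)) →
      ∃ f, ∀ x, Lc M x (-Δ) (f - h x)) (iE : IsInt E) (e0 : 0 ≤ E) (e1 : -Δ ≤ E)
    (e2 : M.H0 E ≤ M.H0 0) : IsPreconnected {x | Nk M Δ x} := by
  refine (isPreconnected_iff_subset_of_fully_disjoint_closed (nk_closed l Δ)).2
    fun u v hu hv huv hd => by_contra fun hn => ?_
  obtain ⟨⟨x, ⟨P, p1, p2⟩, x1⟩, y, ⟨R, r1, r2⟩, y1⟩ := (not_or.1 hn).imp not_subset.1 not_subset.1
  have y2 : y ∈ u := (huv ⟨R, r1, r2⟩).resolve_right y1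
  have c1 : ∀ (z : M.F) (Q : Place K), Q.ord (if z ∈ u then (1 : K) else 0) = 0 := fun z Q => by
    split_ifs <;> simp
  obtain ⟨f, hf⟩ := h (fun z => if z ∈ u then 1 else 0) fun z => by
      have : ∀ᶠ w in 𝓝 z, Nk M Δ w → (z ∈ u ↔ w ∈ u) := by
        by_cases hz : z ∈ u
        · filter_upwards [hv.isOpen_compl.mem_nhds (disjoint_left.1 hd hz)] with w a b
          exact iff_of_true hz ((huv b).resolve_right a)
        · filter_upwards [hu.isOpen_compl.mem_nhds hz] with w a _ using iff_of_false hz a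
      filter_upwards [this] with w hw
      by_cases k : Nk M Δ w
      · exact Or.inl (by simp only [hw k, sub_self])
      · refine Or.inr fun Q hQ => ?_
        have a : Δ Q < 1 := not_le.1 fun e => k ⟨Q, hQ, e⟩
        have b : Q.ord ((if z ∈ u then (1 : K) else 0) - if w ∈ u then 1 else 0) = 0 := by
          split_ifs <;> simp
        rw [b, Finsupp.neg_apply]
        push_cast
        linarith
  have f1 : f ∈ M.H0 0 := e2 (or_iff_not_imp_left.2 fun f0 Q ⟨z, hz⟩ => by
    have a : Ls M z E (f - if z ∈ u then 1 else 0) := (lc_iff.1 (hf z)).imp_right fun k Q hQ => by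
      obtain ⟨m, hm⟩ := iE Q
      have b : ⌈(-Δ) Q⌉ ≤ m := Int.ceil_le.2 (hm ▸ e1 Q)
      have := k Q hQ
      rw [ce_apply] at this
      have b' := Int.cast_le (R := ℝ).2 b
      linarith
    have b : Ls M z E (if z ∈ u then 1 else 0) := Or.inr fun Q _ => by
      simpa [c1] using e0 Q
    simpa [Ls, f0] using (by simpa using a.add b : Ls M z E f).resolve_left f0 Q hz)
  have f0 : f = 0 := by_contra fun f0 => by
    have a := hC f f0 (by simpa using div_add_nonneg l dv_zero f1 f0)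
    have b := (hf x).resolve_left (by simpa [x1] using f0) P p1
    have c := div_apply l f ⟨x, p1⟩
    rw [a] at c
    simp only [if_neg x1, sub_zero, Finsupp.neg_apply, ← c, Finsupp.zero_apply] at b
    linarith
  have b := (hf y).resolve_left (by simp [f0, y2]) R r1
  simp only [if_pos y2, f0, zero_sub, ord_neg, ord_one, Finsupp.neg_apply] at b
  push_cast at b
  linarith

theorem conn_of (hL : LOC n) (hC : CP n) (h : KV n) : CONN n :=
  fun N K _ _ M hM hc κ Δ _ T hT hΔ hA => conn_core (hL N K M hM) ((hC N K M hM).2 hc).2.1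
    fun g => h N K M hM κ (-Δ) T g hT
      (fun Q hQ => ⟨0, by simpa using by_contra fun e => hQ (hΔ (Finsupp.mem_support_iff.2 e))⟩)
      (by rwa [show -Δ - κ = -κ - Δ by abel])

theorem conn2_of (hL : LOC n) (hC : CP n) (h : KV2 n) : CONN2 n :=
  fun N K _ _ M hM hc κ Δ _ T hT hΔ hA => conn_core (hL N K M hM) ((hC N K M hM).2 hc).2.1
    fun g => h N K M hM κ (-Δ) T g hT
      (fun Q hQ => ⟨0, by simpa using by_contra fun e => hQ (hΔ (Finsupp.mem_support_iff.2 e))⟩)
      (by rwa [show -Δ - κ = -κ - Δ by abel])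

end Vale.Agent.P277Z.Kv
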