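import Vale.Agent.P287D.Kv.Nk
import Vale.Agent.P287D.Kv.Kv
import Vale.Agent.P277Z.F5.Bas
import Vale.Agent.P277Z.Lift.Gd

/-!
# P287D, block KV: the theorem of Nadel for nef and big divisors
-/

set_option linter.all false

open scoped Topology ENNReal
open Set Filter MeasureTheory
open Vale.Agent.P272.K (Cm Chart At)
open Vale.Agent.P297 (Place)
open Vale.Agent.P297Z.Pl

noncomputable section

namespace Vale.Agent.P277Z.Kv

open Lift FI F5

variable {n N : ℕ} {K : Type} [Field K] [Algebra ℂ K] {M : Mdl n N K}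

/-- the weight of the systems `W j` in the frames `t j` -/
def wq (M : Mdl n N K) {ι : Type} [Fintype ι] (W : ι → Finset K) (c : ι → ℝ) (t : ι → K)
    (z : M.W) : ℝ≥0∞ := ∏ j, (∑ w ∈ W j, nv M (w * t j) z) ^ (-c j)

/-- the multiplier ideal, any finite set of indices -/
def Ji (M : Mdl n N K) (L : Div K) {ι : Type} [Fintype ι] (D : ι → Div K) (W : ι → Finset K)
    (c : ι → ℝ) (x : M.F) (f : K) : Prop :=
  ∀ (t₀ : K) (t : ι → K), LG M x L t₀ → (∀ j, LG M x (D j) (t j)) →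
    LIm M x fun z => nv M (f * t₀) z * wq M W c t z

theorem ji_iff {ι : Type} [Fintype ι] {k : ℕ} (e : Fin k ≃ ι) {L : Div K} {D : ι → Div K}
    {W : ι → Finset K} {c : ι → ℝ} {x : M.F} {f : K} :
    J M L (D ∘ e) (W ∘ e) (c ∘ e) x f ↔ Ji M L D W c x f := by
  refine ⟨fun h t₀ t h1 h2 => ?_, fun h t₀ t h1 h2 => ?_⟩
  · have := h t₀ (t ∘ e) h1 fun j => h2 (e j)
    simp only [wq, ← e.prod_comp]
    exact this
  · have := h t₀ (t ∘ e.symm) h1 fun j => by simpa using h2 (e.symm j)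
    simpa [wq, ← e.prod_comp] using this

theorem nad1 (hM : M.Proj) {ι α : Type} [Fintype ι] {κ L : Div K} {D : ι → Div K}
    {W : ι → Finset K} {c : ι → ℝ} {U : α → Set M.F} {h : α → K} (h1 : IsCan M κ) (h2 : IsInt L)
    (h3 : ∀ j, IsInt (D j) ∧ 0 ≤ c j ∧ ∀ w ∈ W j, w ∈ M.H0 (D j))
    (h4 : M.Amp (L - κ - ∑ j, c j • D j)) (h5 : ∀ a, IsOpen (U a)) (h6 : ∀ x, ∃ a, x ∈ U a)
    (h7 : ∀ a, h a ∈ M.H0 L) (h8 : ∀ a b x, x ∈ U a → x ∈ U b → Ji M L D W c x (h a - h b)) :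
    ∃ f ∈ M.H0 L, ∀ x, ∃ a, x ∈ U a ∧ Ji M L D W c x (f - h a) := by
  have e := (Fintype.equivFin ι).symm
  simp only [← ji_iff e] at h8 ⊢
  exact nadk n N K M hM κ L _ _ _ _ α U h h1 h2 (fun j => h3 (e j))
    (by rwa [← e.sum_comp] at h4) h5 h6 h7 h8

theorem li_add {f g : Cm n → ℝ≥0∞} {p : Cm n} (hf : LI f p) (hg : LI g p)
    (hm : ∀ᶠ z in 𝓝 p, ContinuousAt g z) : LI (fun z => f z + g z) p := by
  obtain ⟨V, hV, h⟩ := hf
  obtain ⟨V', hV', h'⟩ := hg
  obtain ⟨O, h1, h2, h3⟩ := mem_nhds_iff.1 (inter_mem (inter_mem hV hV') hm)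
  refine ⟨O, h2.mem_nhds h3, ?_⟩
  rw [lintegral_add_right' _ (ContinuousOn.aemeasurable
    (fun z hz => (h1 hz).2.continuousWithinAt) h2.measurableSet)]
  exact ENNReal.add_ne_top.2
    ⟨ne_top_of_le_ne_top h (lintegral_mono_set fun z hz => (h1 hz).1.1),
      ne_top_of_le_ne_top h' (lintegral_mono_set fun z hz => (h1 hz).1.2)⟩

theorem mix (u v : ℝ≥0∞) {θ : ℝ} (h0 : 0 ≤ θ) (h1 : θ ≤ 1) : u ^ θ * v ^ (1 - θ) ≤ u + v := by
  have h2 := sub_nonneg.2 h1
  calc _ ≤ (u + v) ^ θ * (u + v) ^ (1 - θ) := mul_le_mul' (ENNReal.rpow_le_rpow le_self_add h0)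
        (ENNReal.rpow_le_rpow le_add_self h2)
    _ = _ := by rw [← ENNReal.rpow_add_of_nonneg _ _ h0 h2, add_sub_cancel, ENNReal.rpow_one]

theorem lim_mix {x : M.F} {g : K} (hg : g ∈ M.O x) {u : M.W → ℝ≥0∞} {ε θ : ℝ} (h0 : 0 ≤ θ)
    (h1 : θ ≤ 1) (hu : LIm M x u) (hv : LIm M x fun z => nv M g z ^ (-ε)) :
    LIm M x fun z => u z ^ θ * nv M g z ^ (-(ε * (1 - θ))) := fun e he => by
  refine (li_add (hu e he) (hv e he) ((hg e he).eventually_analyticAt.mono fun z hz =>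
    ENNReal.continuous_rpow_const.continuousAt.comp (ENNReal.continuous_ofReal.continuousAt.comp
      (hz.continuousAt.norm.pow 2)))).mono ENNReal.one_ne_top (.of_forall fun z => ?_)
  beta_reduce
  rw [one_mul, ← neg_mul, ENNReal.rpow_mul]
  exact mix _ _ h0 h1

theorem nb_amp (hL : Loc M) (hP : Pos M) {D : Div K} (h : NB M D) : ∃ G : Div K, IsInt G ∧ 0 ≤ G ∧
    ∀ᶠ ε in 𝓝[>] (0 : ℝ), M.Amp (D - ε • G) := by
  obtain ⟨h1, A, h2, G, h3, h4⟩ := h
  obtain ⟨δ, d0, d1⟩ := amp_small hP h2 G.support.finite_toSet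
  obtain ⟨m, hm⟩ := exists_nat_one_div_lt d0
  have m0 : (0 : ℝ) < m + 1 := by positivity
  set G' := ce (((m : ℝ) + 1) • G)
  have k1 := d1 (G - (1 / ((m : ℝ) + 1)) • G') (fun P hP => by
    by_contra e
    have : G P = 0 := Finsupp.notMem_support_iff.1 e
    simp [G', ce_apply, this] at hP) fun P => by
      have a := Int.le_ceil (((m : ℝ) + 1) * G P)
      have b := Int.ceil_lt_add_one (((m : ℝ) + 1) * G P)
      have : (G - (1 / ((m : ℝ) + 1)) • G') P =
          (1 / ((m : ℝ) + 1)) * (((m : ℝ) + 1) * G P - ⌈((m : ℝ) + 1) * G P⌉) := by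
        simp [G', ce_apply]; field_simp
      rw [this, abs_mul, abs_of_pos (by positivity)]
      exact (mul_le_of_le_one_right (by positivity) (abs_le.2 ⟨by linarith, by linarith⟩)).trans hm.le
  have k2 : M.Amp (D - (1 / ((m : ℝ) + 1)) • G') := amp_congr hL hP k1 (by
    have := neg_mem h4
    convert this using 1
    abel)
  refine ⟨G', ce_int _, fun P => ?_, ?_⟩
  · exact Int.cast_nonneg (Int.ceil_nonneg (mul_nonneg m0.le (h3 P)))
  filter_upwards [Ioo_mem_nhdsGT (one_div_pos.2 m0)] with ε hε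
  have k3 : ε * (m + 1) < 1 := (lt_div_iff₀ m0).1 hε.2
  have := amp_add_nef (hP.smul _ _ (mul_pos hε.1 m0) k2) (nef_smul hP h1 (sub_pos.2 k3).le)
  convert this using 1
  match_scalars <;> field_simp <;> ring

/-- the standard weight of a divisor with normal crossings -/
def sw (M : Mdl n N K) (T : Finset (Place K)) (x : M.F) (θ : ℝ) (z : M.W) : ℝ≥0∞ :=
  ∏ P : T, nv M (eqD M x (Finsupp.single P 1)) z ^ (-θ)

theorem nad2 (hM : M.Proj) {ι α : Type} [Fintype ι] {κ L : Div K} {T : Finset (Place K)}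
    {D : ι → Div K} {W : ι → Finset K} {c : ι → ℝ} {U : α → Set M.F} {h : α → K} {θ : ℝ}
    (h1 : Lg M κ T) (h2 : IsInt L) (h3 : ∀ j, IsInt (D j) ∧ 0 ≤ c j ∧ ∀ w ∈ W j, w ∈ M.H0 (D j))
    (h4 : NB M (L - κ - ∑ j, c j • D j)) (h5 : ∀ a, IsOpen (U a)) (h6 : ∀ x, ∃ a, x ∈ U a)
    (h7 : ∀ a, h a ∈ M.H0 L) (hθ : θ < 1)
    (h8 : ∀ a b x, x ∈ U a → x ∈ U b → ∀ t₀ t, LG M x L t₀ → (∀ j, LG M x (D j) (t j)) →
      Cp (𝓝 (x : M.W)) (fun z => nv M ((h a - h b) * t₀) z * wq M W c t z) (sw M T x θ)) :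
    ∃ f ∈ M.H0 L, ∀ x, ∃ a, x ∈ U a ∧ Ji M L D W c x (f - h a) := by
  have hL := locA n N K M hM
  have hP := posA n N K M hM
  obtain ⟨G, g1, g2, g3⟩ := nb_amp hL hP h4
  obtain ⟨ε₀, e0, e1⟩ := good (J := Empty) (Q := Empty.elim) hL (fun a => a.elim)
    (snc_mono h1.snc fun _ ⟨a, _⟩ => a.elim) g1 (one_mem_H0 g2) one_ne_zero fun a => a.elim
  obtain ⟨η, n0, n1, n2⟩ : ∃ η : ℝ, 0 < η ∧ θ < η ∧ η < 1 :=
    ⟨(max θ 0 + 1) / 2, by positivity, by linarith [le_max_left θ 0, max_lt hθ one_pos],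
      by linarith [max_lt hθ one_pos]⟩
  obtain ⟨ε, e2, e3⟩ := (g3.and (Ioo_mem_nhdsGT (mul_pos e0 (sub_pos.2 n2)))).exists
  obtain ⟨f, f1, f2⟩ := nad1 hM (ι := Option ι) (D := fun j => j.elim G D)
    (W := fun j => j.elim {1} W) (c := fun j => j.elim ε c) h1.can h2 (fun j => by
      cases j with
      | none => exact ⟨g1, e3.1.le, fun w hw => Finset.mem_singleton.1 hw ▸ one_mem_H0 g2⟩
      | some j => exact h3 j) (by
      convert e2 using 1
      simp only [Fintype.sum_option, Option.elim]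
      abel) h5 h6 h7 fun a b x ha hb t₀ t k1 k2 => by
      have k3 := (k2 none).mem hL (one_mem_H0 g2)
      have k4 := lim_mix k3 n0.le n2.le (lim_snc hL Subtype.val_injective (Q := fun P : T => P.1)
        (by simpa using h1.snc) (fun P => lg_eqD hL (IsInt.single _)) (γ := fun _ => θ / η)
        fun _ => (div_lt_one n0).2 n1) (by
          simpa using e1 x _ Empty.elim Empty.elim (k2 none) (fun a => a.elim) (fun a => a.elim)
            fun a => a.elim)
      refine k4.cp ((Cp.of_le (.of_forall fun z => le_of_eq ?_)).trans (((h8 a b x ha hb t₀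
        (fun j => t (some j)) k1 fun j => k2 (some j)).mul ((nv_bdd k3).anti (nv_ne_top _)
          e3.2.le)).trans (Cp.of_le (.of_forall fun z => le_of_eq ?_))))
      · simp only [wq, Fintype.prod_option, Option.elim, Finset.sum_singleton]
        ring
      · rw [sw, ← ENNReal.prod_rpow_of_nonneg n0.le]
        simp only [← ENNReal.rpow_mul, neg_mul, div_mul_cancel₀ _ n0.ne']
  refine ⟨f, f1, fun x => (f2 x).imp fun a k => ⟨k.1, fun t₀ t k1 k2 => ?_⟩⟩
  have k3 := lg_eqD (x := x) hL g1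
  refine (k.2 t₀ (fun j => j.elim (eqD M x G) t) k1 fun j => by
    cases j with
    | none => exact k3
    | some j => exact k2 j).cp ?_
  have k4 := (Cp.refl (f := fun z => nv M ((f - h a) * t₀) z * wq M W c t z)).mul
    ((nv_bdd (k3.mem hL (one_mem_H0 g2))).neg e3.1.le)
  simp only [ENNReal.one_rpow, mul_one] at k4
  refine k4.trans (Cp.of_le (.of_forall fun z => le_of_eq ?_))
  simp only [wq, Fintype.prod_option, Option.elim, Finset.sum_singleton]
  ring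

end Vale.Agent.P277Z.Kv
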