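import Vale.Agent.P287D.Kv.St
import Vale.Agent.P277Z.Lift.ExtF

/-!
# P287D, block KV: the theorem of Nadel near the fibre
-/

set_option linter.all false

open scoped Manifold ContDiff Topology ENNReal ComplexOrder
open Set Filter
open Vale.Agent.P272.K Vale.Agent.P301.H599 Vale.Agent.P285Z
open Vale.Agent.P285.H281.FD (Bd)
open Vale.Agent.P301.H98 (IsSection)
open TopologicalSpace (Opens)

noncomputable section

namespace Vale.Agent.P277Z.Kv

open Lift Van Ps XF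

theorem lim_res {d : ℕ} {W : Type} [TopologicalSpace W] [ChartedSpace (Cm d) W]
    [IsManifold 𝓘(ℂ, Cm d) ω W] {O : Opens W} {x : O} {e : Chart d O} (he : At e x)
    {u : W → ℝ≥0∞} : LIM d u x.1 ↔ ∃ V ∈ 𝓝 (e x), ∫⁻ z in V, u (e.symm z).1 ≠ ⊤ := by
  obtain ⟨e', e1, e2, e3⟩ := chart_fn he
  rw [lim_iff_chart e1, e2]
  exact ⟨fun h => Lift.LI.congr h (e3 _ u).symm, fun h => Lift.LI.congr h (e3 _ u)⟩

theorem nadf : NADF := by
  intro d N G ⟨A, ψ, hA, hψ, hc⟩ C m E c r w Λ α _ V f hC hE hc0 hw hP hV cov hf hX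
  have hF : ∀ j, G.LB ((Fin.cons (Bd.can d G.W) E : Fin (m + 1) → Bd G.W) j) :=
    Fin.cases (lb_can G) hE
  have cov' : ∀ᶠ z in 𝓝ˢ G.F, ∃ a, z ∈ V a := eventually_nhdsSet_iff_forall.2 fun x hx =>
    let ⟨a, ha⟩ := cov x hx
    mem_of_superset ((hV a).mem_nhds ha) fun _ hy => ⟨a, hy⟩
  obtain ⟨O, b, hFO, hO, h0, h1, h2, h3⟩ := exists_nb G ((LB_near hA).and ((LB_near hC).and
    ((eventually_all.2 fun j => LB_near (hF j)).and ((eventually_all.2 hf).and
      ((eventually_all.2 fun j => eventually_all.2 (hw j)).and (hP.and (hX.and cov')))))))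
  have := sigmaCompact O
  obtain ⟨h, hh⟩ := exists_isHermitian (d := d) (X := O)
  set A' := resL hA O fun y hy => (hO hy).1
  set C' := resL hC O fun y hy => (hO hy).2.1
  set E' := fun j => resL (hF j) O fun y hy => (hO hy).2.2.1 j
  have hA' : IsMetric A' fun i y => ψ i y.1 :=
    ⟨fun i e x he hi => (spsh_res (hψ i x.1 hi) e he).1, fun i j x hi hj => hc i j x.1 hi hj⟩
  choose ρ hρ hρ0 using show ∀ j, ∃ ρ, IsMetric (E' j) ρ ∧
      (j = 0 → FEq (curvature (E' j) ρ) (kc h)) from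
    Fin.cases ((can_met _ O _ hh).imp fun _ a => ⟨a.1, fun _ => a.2⟩) fun j =>
      (exists_isMetric _).imp fun _ a => ⟨a, fun b => (j.succ_ne_zero b).elim⟩
  obtain ⟨τ, hτ, hpos⟩ := met_of (B := C') hρ (c := Fin.cons 1 c) (Λ := fun i k y => Λ i k y.1)
    (fun z => let ⟨i, k, a1, a2, a3⟩ := (hO z.2).2.2.2.2.2.1.pos
      ⟨i, k, a1, a2, spsh_res a3.self_of_nhds⟩) fun z => (hO z.2).2.2.2.2.2.1.chg
  let S : Fin m → Sys d O := fun j => ⟨_, E' j.succ, ρ _, r j, fun a i y => w j a i y.1, hρ _,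
    fun a => sec_res (hF j.succ) _ fun y hy => (hO hy).2.2.2.2.1 j a⟩
  have hE' := Pos.JoAux.exh_sub (d := d) (t := fun y : O => ∑ i, ‖G.π y i‖ ^ 2) (c := b) isOpen_univ
    (fun y _ => psdAt_sq fun i => hol_res (h1 y y.2 i)) (by simpa using h3)
  have sf := fun a => sec_res hC (O := O) (fun y hy => (hO hy).2.1) fun y hy => (hO hy).2.2.2.1 a
  obtain ⟨F, k1, k2⟩ := Van.nadel d O h hh _ _ ⟨h3, fun y hy => le_of_lt hy.2, _, _, A', _, hE', hA',
    fun e x he _ => by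
      obtain ⟨i, hi⟩ := A'.cover x
      rw [curvature_eq hA' he hi]
      exact (spsh_res (hψ i x.1 hi) e he).2⟩ _ C' τ hτ m S c hc0
    (fun e x he _ => by
      have a1 := hpos e x he
      rw [Fin.sum_univ_succ, hρ0 0 rfl e x he] at a1
      simp only [Fin.cons_zero, Fin.cons_succ, Complex.ofReal_one, one_smul, ← sub_sub] at a1
      exact a1) α (fun a => Subtype.val ⁻¹' V a) (fun a i y => f a i y.1)
    (fun a => (hV a).preimage continuous_subtype_val) (fun x _ => (hO x.2).2.2.2.2.2.2.2)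
    (fun a => ⟨fun i e x he hi _ => (sf a).1 i e x he hi, fun i j x hi hj _ => (sf a).2 i j x hi hj⟩)
    fun a a' x _ ha ha' => by
      obtain ⟨i, k, b1, b2, b3⟩ := (hO x.2).2.2.2.2.2.2.1 a a' ha ha'
      exact ⟨_, i, k, ⟨atChart x, b1, b2⟩, (lim_res (atChart x)).1 b3⟩
  have h4 : G.F ⊆ Subtype.val '' {y : O | y ∈ univ ∧ ∑ i, ‖G.π y i‖ ^ 2 < b} := fun y hy =>
    ⟨⟨y, hFO hy⟩, by simp [(h2 y (hFO hy)).2 hy, h0], rfl⟩
  refine ⟨fun i => ext (F i), sec_ext (M := C') (fun _ _ => Iff.rfl) (fun _ _ _ => rfl) hE'.isOpen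
    h4 k1, fun a z hz ha i k hi hk => ?_⟩
  obtain ⟨y, hy, rfl⟩ := h4 hz
  refine (lim_res (atChart y)).2 ?_
  simp only [ext_val]
  exact k2 a y hy ha _ i k ⟨atChart y, hi, hk⟩

end Vale.Agent.P277Z.Kv
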