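import Vale.Agent.P287D.Kv.Nf
import Vale.Agent.P277Z.FI.Box

/-!
# P287D, block KV: the theorem of Nadel on a model
-/

set_option linter.all false

open scoped Manifold ContDiff Topology ENNReal
open Set Filter MeasureTheory
open Vale.Agent.P272.K (Cm Chart At cHess)
open Vale.Agent.P297 (Place)
open Vale.Agent.P297Z.Pl
open Vale.Agent.P285.H281.FD (Bd)

noncomputable section

namespace Vale.Agent.P277Z.Kv

open Lift
open Lb hiding eqD mul_loc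
open FI hiding pt

variable {n N : ℕ} {K : Type} [Field K] [Algebra ℂ K] {M : Mdl n N K}

theorem lim_iff' {y : M.W} {f : M.W → ℝ≥0∞} : LIm M y f ↔ LIM n f y :=
  ⟨fun h => h _ (Lo.at_chartAt y), fun h _ he => (lim_iff_chart he).1 h⟩

theorem rep_loc' (hL : Loc M) {C : Bd M.W} {D : Div K} {σ : C.ι → M.W → ℂ} (h : M.Rep C D σ)
    {x : M.F} {i : C.ι} (hi : (x : M.W) ∈ C.U i) {t : K} (ht : LG M x D t) : ∃ v : M.W → ℂ,
      Hol n v x ∧ v x ≠ 0 ∧ ∀ᶠ z in gen {(x : M.W)}, σ i z = v z * M.val t z := by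
  obtain ⟨T, v, k1, k2, k3, k4⟩ := rep_loc h x hi
  obtain ⟨k5, k6⟩ := Lb.unit_of hL (div_ne_zero k1.1 ht.1) (x := x) fun Q hQ => by
    rw [ord_div Q k1.1 ht.1, Int.cast_inj.1 ((k1.2 Q hQ).trans (ht.2 Q hQ).symm), sub_self]
  refine ⟨fun z => v z * M.val (T / t) z, k2.mul k5, mul_ne_zero k3 k6, ?_⟩
  filter_upwards [k4, M.at_pt (M.val_mul (T / t) t) x] with z e1 e2
  rw [e1, mul_assoc, ← e2, div_mul_cancel₀ _ ht.1]

theorem sec_sub {G : Geo n N} {C : Bd G.W} {s s' : C.ι → G.W → ℂ} (h : G.Sec C s)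
    (h' : G.Sec C s') : G.Sec C fun i y => s i y - s' i y := by
  filter_upwards [h, h'] with y e1 e2 i hi
  exact ⟨(e1 i hi).1.sub (e2 i hi).1, fun j hj => by rw [(e1 i hi).2 j hj, (e2 i hi).2 j hj, mul_sub]⟩

theorem mul_sub' {C : Bd M.W} {σ s s' : C.ι → M.W → ℂ} {f g : K} (h : M.Mul σ f s)
    (h' : M.Mul σ g s') : M.Mul σ (f - g) fun i y => s i y - s' i y := fun x i hi => by
  filter_upwards [h x i hi, h' x i hi, M.at_pt (M.val_sub f g) x] with y e1 e2 e3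
  rw [e1, e2, e3, sub_mul]

theorem sum_fin (W : Finset K) (F : K → ℂ) : ENNReal.ofReal (∑ a, ‖F (W.equivFin.symm a)‖ ^ 2) =
    ∑ w ∈ W, ENNReal.ofReal (‖F w‖ ^ 2) := by
  rw [ENNReal.ofReal_sum_of_nonneg fun _ _ => sq_nonneg _, ← Finset.sum_coe_sort W,
    ← W.equivFin.symm.sum_comp]

theorem nq_ne_zero {a : ℂ} (h : a ≠ 0) (t : ℝ) : ENNReal.ofReal (‖a‖ ^ 2) ^ t ≠ 0 :=
  (ENNReal.rpow_pos (ENNReal.ofReal_pos.2 (by positivity)) ENNReal.ofReal_ne_top).ne'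

theorem ik_iff (hL : Loc M) {C : Bd M.W} {k : ℕ} {E : Fin k → Bd M.W} {L : Div K}
    {D : Fin k → Div K} {σC s : C.ι → M.W → ℂ} {σE : ∀ j, (E j).ι → M.W → ℂ} (hC : M.Rep C L σC)
    (hE : ∀ j, M.Rep (E j) (D j) (σE j)) {W : Fin k → Finset K}
    {ϖ : ∀ j, Fin (W j).card → (E j).ι → M.W → ℂ} (hW : ∀ j, ∀ w ∈ W j, w ∈ M.H0 (D j))
    (hw : ∀ j a, M.Sec (E j) (ϖ j a) ∧ M.Mul (σE j) ((W j).equivFin.symm a) (ϖ j a))
    {c : Fin k → ℝ} {g : K} (hg : g ∈ M.H0 L) (h1 : M.Sec C s) (h2 : M.Mul σC g s) {x : M.F}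
    {i : C.ι} {κ : ∀ j, (E j).ι} (hi : (x : M.W) ∈ C.U i) (hκ : ∀ j, (x : M.W) ∈ (E j).U (κ j))
    {t₀ : K} {t : Fin k → K} (k1 : LG M x L t₀) (k2 : ∀ j, LG M x (D j) (t j)) :
    IK n c ϖ s x i κ ↔
      LIm M x fun z => nv M (g * t₀) z * ∏ j, (∑ w ∈ W j, nv M (w * t j) z) ^ (-c j) := by
  obtain ⟨v, c2, c3, c4⟩ := rep_loc' hL hC hi k1
  choose v' d2 d3 d4 using fun j => rep_loc' hL (hE j) (hκ j) (k2 j)
  have m0 := mul_loc hL hg h1 h2 hi k1 c2 c4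
  have m1 := fun j a => mul_loc hL (hW j _ ((W j).equivFin.symm a).2) (hw j a).1 (hw j a).2 (hκ j)
    (k2 j) (d2 j) (d4 j)
  set u : M.W → ℝ≥0∞ := fun z => ENNReal.ofReal (‖v z‖ ^ 2) ^ (1 : ℝ) *
    ∏ j, ENNReal.ofReal (‖v' j z‖ ^ 2) ^ (-c j) with hu
  have ne : ∀ z, v z ≠ 0 → (∀ j, v' j z ≠ 0) → u z ≠ 0 ∧ u z ≠ ⊤ := fun z a b =>
    ⟨mul_ne_zero (nq_ne_zero a 1) (Finset.prod_ne_zero_iff.2 fun j _ => nq_ne_zero (b j) _),
      ENNReal.mul_ne_top (nq_ne_top a 1) (ENNReal.prod_ne_top fun j _ => nq_ne_top (b j) _)⟩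
  have uc : ContinuousAt u x := ENNReal.Tendsto.mul (nq_cont c2.cont 1)
    (Or.inr (ENNReal.prod_ne_top fun j _ => nq_ne_top (d3 j) _))
    (ENNReal.tendsto_finsetProd_of_ne_top _ (fun j _ => nq_cont (d2 j).cont _)
      fun j _ => nq_ne_top (d3 j) _) (Or.inr (nq_ne_top c3 1))
  have key : ∀ᶠ z in 𝓝 (x : M.W), ENNReal.ofReal (‖s i z‖ ^ 2) * wt (fun j a => ϖ j a (κ j)) c z =
      u z * (nv M (g * t₀) z * ∏ j, (∑ w ∈ W j, nv M (w * t j) z) ^ (-c j)) := by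
    filter_upwards [m0.2, eventually_all.2 fun j => eventually_all.2 fun a => (m1 j a).2]
      with z e0 hz
    have h6 := wt_unit (fun j => v' j z)
      (fun j a z => M.val (((W j).equivFin.symm a : K) * t j) z) c z
      (b' := fun j a z => ϖ j a (κ j) z) fun j a => hz j a
    rw [show wt (fun j a => ϖ j a (κ j)) c z = _ from h6, e0, hu, norm_mul, mul_pow,
      ENNReal.ofReal_mul (sq_nonneg _), wt, Finset.prod_congr rfl fun j _ =>
        congrArg (· ^ (-c j)) (sum_fin (W j) fun w => M.val (w * t j) z)]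
    simp only [ENNReal.rpow_one, nv]
    ring
  rw [lim_iff']
  refine ⟨fun h => (LIM.cmul h (g := fun z => (u z)⁻¹) (continuous_inv.continuousAt.comp uc)
    (ENNReal.inv_ne_top.2 (ne x c3 d3).1)).congr ?_,
    fun h => (h.cmul uc (ne x c3 d3).2).congr key⟩
  filter_upwards [key, c2.ne_near c3, eventually_all.2 fun j => (d2 j).ne_near (d3 j)]
    with z e1 e2 e3
  rw [e1, ← mul_assoc, ENNReal.inv_mul_cancel (ne z e2 e3).1 (ne z e2 e3).2, one_mul]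

theorem shrink {α : Type} {U : α → Set M.F} (hU : ∀ a, IsOpen (U a)) (cov : ∀ x, ∃ a, x ∈ U a) :
    ∃ (t : Finset M.F) (a : t → α) (Q : t → Set M.W), (∀ p, IsClosed (Q p)) ∧
      (∀ p (y : M.F), y.1 ∈ Q p → y ∈ U (a p)) ∧ ∀ z ∈ M.F, ∃ p, z ∈ interior (Q p) := by
  haveI : LocallyCompactSpace M.W := ChartedSpace.locallyCompactSpace (Cm n) M.W
  choose a ha using cov
  have : ∀ x : M.F, ∃ Q : Set M.W, IsClosed Q ∧ (∀ y : M.F, y.1 ∈ Q → y ∈ U (a x)) ∧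
      x.1 ∈ interior Q := fun x => by
    obtain ⟨U', h1, h2⟩ := isOpen_induced_iff.1 (hU (a x))
    obtain ⟨Q, h3, h4, h5⟩ := exists_compact_subset h1 (show x.1 ∈ U' by
      have := ha x; rwa [← h2] at this)
    exact ⟨Q, h3.isClosed, fun y hy => by rw [← h2]; exact h5 hy, h4⟩
  choose Q h1 h2 h3 using this
  obtain ⟨t, ht⟩ := M.cpt.elim_finite_subcover (fun x : M.F => interior (Q x))
    (fun _ => isOpen_interior) fun z hz => mem_iUnion.2 ⟨⟨z, hz⟩, h3 _⟩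
  refine ⟨t, fun p => a p, fun p => Q p, fun p => h1 p, fun p => h2 p, fun z hz => ?_⟩
  obtain ⟨p, hp, h⟩ := mem_iUnion₂.1 (ht hz)
  exact ⟨⟨p, hp⟩, h⟩

/-- **NADK** -/
theorem nadk (n : ℕ) : NADK n := by
  intro N K _ _ M hM κ L k D W c α U h ⟨g, κ₀, f₀, f0, hκ, e⟩ hD hE hA hU cov hh hJ
  have hL := locA n N K M hM
  obtain ⟨C, σC, hC⟩ := lbd_ex hL L hD
  choose E σE hE' using fun j => lbd_ex hL _ (hE j).1
  have hW := fun j => (hE j).2.2
  choose ϖ p1 using fun j (a : Fin (W j).card) =>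
    lbd_sec M hL _ _ _ _ (hE' j) (hW j _ ((W j).equivFin.symm a).2)
  choose τ t1 t2 using fun a => lbd_sec M hL _ _ _ _ hC (hh a)
  have h7 : ∀ j, ∃ σ, M.Rep ((Fin.cons (Bd.can n M.W) E : Fin (k + 1) → Bd M.W) j)
      ((Fin.cons κ₀ D : Fin (k + 1) → Div K) j) σ :=
    Fin.cases ⟨_, lbd_can M hL g κ₀ hκ⟩ fun j => ⟨σE j, hE' j⟩
  choose σ h7 using h7
  obtain ⟨Λ, hΛ⟩ := metK n N K M hL C L σC _ _ _ σ (Fin.cons 1 c) hC h7 (by
    refine Eq.mp (congrArg M.Amp ?_) ((posA n N K M hM).div _ f₀ f0 hA)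
    simp only [Fin.sum_univ_succ, Fin.cons_zero, Fin.cons_succ, one_smul, e]
    abel)
  obtain ⟨t, a, Q, q1, q2, q3⟩ := shrink hU cov
  have lg := fun (x : M.F) => And.intro (lg_eqD (x := x) hL hD) fun j => lg_eqD (x := x) hL (hE j).1
  obtain ⟨F, F1, F2⟩ := nadf n N M.toGeo hM C k E c _ ϖ Λ t (fun p => interior (Q p))
    (fun p => τ (a p)) hC.lb (fun j => (hE' j).lb) (fun j => (hE j).2.1) (fun j a => (p1 j a).1) hΛ
    (fun _ => isOpen_interior) q3 (fun p => t1 _) (eventually_nhdsSet_iff_forall.2 fun x hx =>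
      eventually_all.2 fun p => eventually_all.2 fun q => by
        by_cases hp : x ∈ Q p
        swap
        · filter_upwards [(q1 p).isOpen_compl.mem_nhds hp] with z e1 e2
            using (e1 (interior_subset e2)).elim
        by_cases hq : x ∈ Q q
        swap
        · filter_upwards [(q1 q).isOpen_compl.mem_nhds hq] with z e1 _ e2
            using (e1 (interior_subset e2)).elim
        lift x to M.F using hx
        obtain ⟨i, hi⟩ := hC.lb.cover _ x.2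
        choose κ' k1 using fun j => (hE' j).lb.cover _ x.2
        have := (ik_iff hL hC hE' hW p1 (sub_mem (hh _) (hh _)) (sec_sub (t1 _) (t1 _))
          (mul_sub' (t2 _) (t2 _)) hi k1 (lg x).1 (lg x).2).2
          (hJ _ _ x (q2 p x hp) (q2 q x hq) _ _ (lg x).1 (lg x).2)
        filter_upwards [LIM.ev this, (hC.lb.isOpen i).mem_nhds hi,
          eventually_all.2 fun j => ((hE' j).lb.isOpen _).mem_nhds (k1 j)] with z e1 e2 e3 _ _
          using ⟨i, κ', e2, e3, e1⟩)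
  obtain ⟨f, f1, f2⟩ := lbd_fn M C L σC F hC F1
  refine ⟨f, f1, fun x => ?_⟩
  obtain ⟨p, hp⟩ := q3 x x.2
  obtain ⟨i, hi⟩ := hC.lb.cover _ x.2
  choose κ' k1 using fun j => (hE' j).lb.cover _ x.2
  exact ⟨a p, q2 p x (interior_subset hp), fun t₀ t' l1 l2 =>
    (ik_iff hL hC hE' hW p1 (sub_mem f1 (hh _)) (sec_sub F1 (t1 _)) (mul_sub' f2 (t2 _)) hi k1 l1
      l2).1 (F2 p x x.2 hp i κ' hi k1)⟩

end Vale.Agent.P277Z.Kv
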