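import Vale.Agent.P287D.Kv.St

/-!
# P287D, block KV: the nef and big forms. Statements.
-/

set_option linter.all false

open scoped Topology
open Set Filter
open Vale.Agent.P297 (Place)

noncomputable section

namespace Vale.Agent.P277Z.Kv

open Lift FI F5

variable {n N : ℕ} {K : Type} [Field K] [Algebra ℂ K]

/-- nef and big -/
def NB (M : Mdl n N K) (D : Div K) : Prop :=
  M.Nef D ∧ ∃ A, M.Amp A ∧ Eff M (D - A)

/-- **KV2**: `H¹(⌈D⌉) = 0` if `D - K` is nef and big -/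
def KV2 (n : ℕ) : Prop := ForM n fun _ K _ _ M => ∀ (κ D : Div K) (T : Set (Place K))
  (h : M.F → K), Lg M κ T → (∀ P ∉ T, ∃ k : ℤ, D P = k) → NB M (D - κ) →
  (∀ x, ∀ᶠ y in 𝓝 x, Lc M y D (h x - h y)) → ∃ f, ∀ x, Lc M x D (f - h x)

/-- **CONN2** -/
def CONN2 (n : ℕ) : Prop := ForM n fun _ K _ _ M => Cpt M → ∀ (κ Δ E : Div K)
  (T : Set (Place K)), Lg M κ T → (Δ.support : Set (Place K)) ⊆ T → NB M (-κ - Δ) → IsInt E →
  0 ≤ E → -Δ ≤ E → M.H0 E ≤ M.H0 0 → IsPreconnected {x | Nk M Δ x}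

/-- **RCONN2** -/
def RCONN2 (n : ℕ) : Prop := ForM n fun _ K _ _ M => ∀ (κ Δ₀ Δ H E : Div K) (T : Set (Place K))
  (m : ℝ) (x : M.F), Lg M κ T → (Δ₀.support : Set (Place K)) ⊆ T →
  (Δ.support : Set (Place K)) ⊆ T → (∀ P, Δ₀ P < 1) → Δ₀ ≤ Δ → IsInt H → (∀ y, M.Free H y) →
  NB M (m • H - κ - Δ₀) → NB M (m • H - κ - Δ) → IsInt E → 0 ≤ E → -Δ₀ ≤ E →
  (∀ (k : ℕ), ∀ f ∈ M.H0 ((k : ℝ) • H + E), f ∈ M.H0 ((k : ℝ) • H)) →
  IsPreconnected {y | Sm M H x y ∧ Nk M Δ y}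

end Vale.Agent.P277Z.Kv
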